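import Vale.Agent.P235.K5.EX.H719.EI
import Vale.Agent.P235.K5.EX.H452.All

set_option linter.all false
set_option autoImplicit false

/-!
# Sums over cliques with at most three vertices of edge-isometric graphs are edge-isometric: closed
(helper719)
-/

namespace Vale.Agent.P235.K5.EX.H719

open SimpleGraph Vale.Agent.P235 Vale.Agent.P235.K5 Vale.Agent.P235.ST.H626

/-- **All connected subgraphs of sums, over cliques with at most three vertices, of connected
`EdgeIso C` graphs are `EdgeIso K`.** -/
theorem edgeIso_sum (C : ℝ) (hC : 1 ≤ C) :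
    ∃ K : ℝ, 1 ≤ K ∧ ∀ (V : Type) [Finite V] (G H : SimpleGraph V), G ≤ H → G.Connected →
      CliqueSum 3 (fun V G _ => G.Connected ∧ EdgeIso G C) H → EdgeIso G K ∧ DistortionLE G K :=
  ei' H452.px3 H371.px2 C hC

/-- The same for `EdgeExact`. -/
theorem edgeExact_sum (c : ℝ) (hc : 0 < c) (hc1 : c ≤ 1) :
    ∃ K : ℝ, 1 ≤ K ∧ ∀ (V : Type) [Finite V] (G H : SimpleGraph V), G ≤ H → G.Connected →
      CliqueSum 3 (H452.PE c) H → EdgeIso G K :=
  ei H452.px3 H371.px2 c hc hc1

/-- **If `c₁ ≤ C` on a class of connected graphs closed under gluing along edges, then all connected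
subgraphs of its sums over cliques with at most three vertices are `EdgeIso K`, `K = K(C)`.** -/
theorem edgeIso_glueClosed_sum (C : ℝ) (hC : 1 ≤ C) :
    ∃ K : ℝ, 1 ≤ K ∧ ∀ Q : ∀ V : Type, SimpleGraph V → Prop, GlueClosed Q →
      (∀ (V : Type) (G : SimpleGraph V), Q V G → G.Connected) →
      (∀ (V : Type) [Finite V] (G : SimpleGraph V), Q V G → DistortionLE G C) →
      ∀ (V : Type) [Finite V] (G H : SimpleGraph V), G ≤ H → G.Connected →
        CliqueSum 3 (fun V G _ => Q V G) H → EdgeIso G K ∧ DistortionLE G K :=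
  ei_glue H452.px3 H371.px2 C hC

end Vale.Agent.P235.K5.EX.H719
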