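import Vale.Agent.P235.K5.EX.H719.All

set_option linter.all false
set_option autoImplicit false

/-!
# From sums along edges to sums over cliques with at most three vertices (helper719)
-/

namespace Vale.Agent.P235.K5.EX.H719

open SimpleGraph Vale.Agent.P235 Vale.Agent.P235.K5
open Vale.Agent.P235.ST Vale.Agent.P235.ST.H626

/-- an injection which keeps adjacency in both directions is an isomorphism onto its image -/
noncomputable def isoRange {V U : Type} {G : SimpleGraph V} {K : SimpleGraph U} (f : V → U)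
    (hf : Function.Injective f) (h : ∀ u v, K.Adj (f u) (f v) ↔ G.Adj u v) :
    G ≃g K.induce (Set.range f) where
  toEquiv := Equiv.ofInjective f hf
  map_rel_iff' := by
    intro u v
    exact h u v

/-- gluing along an edge in terms of induced subgraphs -/
theorem glueClosed_of {Q : ∀ V : Type, SimpleGraph V → Prop}
    (hiso : ∀ (V W : Type) (G : SimpleGraph V) (H : SimpleGraph W), Nonempty (G ≃g H) →
      Q V G → Q W H)
    (hglue : ∀ (V : Type) [Finite V] (G : SimpleGraph V) (A B : Set V) (s t : V), G.Adj s t →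
      A ∪ B = Set.univ → A ∩ B = {s, t} → (∀ u v, u ∉ B → v ∉ A → ¬ G.Adj u v) →
      Q A (G.induce A) → Q B (G.induce B) → Q V G) :
    GlueClosed (fun V G => G.Connected ∧ Q V G) := by
  rintro V W _ _ G H a b s t hab hst ⟨hG, hQG⟩ ⟨hH, hQH⟩
  refine ⟨gg_connected hG hH hab hst, ?_⟩
  have hg := glued (G := G) (H := H) hab hst
  have hG1 : ∀ u v, (GG G H a b s t).Adj (Sum.inl u) (Sum.inl v) ↔ G.Adj u v := by
    intro u v
    refine ⟨fun huv => ?_, fun huv => hg.adjA u v huv⟩
    rcases hg.adj _ _ huv with ⟨x, y, hxy, hx, hy⟩ | ⟨x, y, hxy, hx, hy⟩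
    · have e1 : x = u := Sum.inl_injective hx
      have e2 : y = v := Sum.inl_injective hy
      rw [← e1, ← e2]; exact hxy
    · rcases hg.inter u x hx.symm with ⟨e1, e2⟩ | ⟨e1, e2⟩ <;>
      rcases hg.inter v y hy.symm with ⟨e3, e4⟩ | ⟨e3, e4⟩
      · exact absurd (e2.trans e4.symm) hxy.ne
      · rw [e1, e3]; exact hab
      · rw [e1, e3]; exact hab.symm
      · exact absurd (e2.trans e4.symm) hxy.ne
  have hG2 : ∀ u v, (GG G H a b s t).Adj (i2 a b s t u) (i2 a b s t v) ↔ H.Adj u v := by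
    intro u v
    refine ⟨fun huv => ?_, fun huv => hg.adjB u v huv⟩
    rcases hg.adj _ _ huv with ⟨x, y, hxy, hx, hy⟩ | ⟨x, y, hxy, hx, hy⟩
    · rcases hg.inter x u hx with ⟨e1, e2⟩ | ⟨e1, e2⟩ <;>
      rcases hg.inter y v hy with ⟨e3, e4⟩ | ⟨e3, e4⟩
      · exact absurd (e1.trans e3.symm) hxy.ne
      · rw [e2, e4]; exact hst
      · rw [e2, e4]; exact hst.symm
      · exact absurd (e1.trans e3.symm) hxy.ne
    · have e1 : x = u := hg.injB hx
      have e2 : y = v := hg.injB hy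
      rw [← e1, ← e2]; exact hxy
  refine hglue (GV V s t) (GG G H a b s t) (Set.range Sum.inl) (Set.range (i2 a b s t))
    (Sum.inl a) (Sum.inl b) (hg.adjA a b hab) ?_ ?_ ?_ ?_ ?_
  · ext v
    simp only [Set.mem_univ, iff_true]
    rcases hg.cov v with ⟨x, hx⟩ | ⟨x, hx⟩
    · exact Or.inl ⟨x, hx⟩
    · exact Or.inr ⟨x, hx⟩
  · ext v
    constructor
    · rintro ⟨⟨x, rfl⟩, y, hy⟩
      rcases hg.inter x y hy.symm with ⟨e1, -⟩ | ⟨e1, -⟩
      · left; rw [e1]
      · right; rw [e1]; rfl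
    · rintro (rfl | rfl)
      · exact ⟨⟨a, rfl⟩, s, hg.hs.symm⟩
      · exact ⟨⟨b, rfl⟩, t, hg.ht.symm⟩
  · intro u v hu hv huv
    rcases hg.adj _ _ huv with ⟨x, y, hxy, hx, hy⟩ | ⟨x, y, hxy, hx, hy⟩
    · exact hv ⟨y, hy⟩
    · exact hu ⟨x, hx⟩
  · exact hiso _ _ _ _ ⟨isoRange Sum.inl Sum.inl_injective hG1⟩ hQG
  · exact hiso _ _ _ _ ⟨isoRange (i2 a b s t) hg.injB hG2⟩ hQH

/-- **The `3`-sum problem reduces to the `2`-sum problem.**  Let the class `Q` be closed under
isomorphism and under gluing along an edge, with `c₁ ≤ C` on its connected members.  Then all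
connected subgraphs of sums of connected members of `Q` over cliques with at most three vertices
(unlimited, in any order) are `EdgeIso K` and have `c₁ ≤ K`, with `K = K(C)`. -/
theorem sum3_of_sum2 (C : ℝ) (hC : 1 ≤ C) :
    ∃ K : ℝ, 1 ≤ K ∧ ∀ Q : ∀ V : Type, SimpleGraph V → Prop,
      (∀ (V W : Type) (G : SimpleGraph V) (H : SimpleGraph W), Nonempty (G ≃g H) →
        Q V G → Q W H) →
      (∀ (V : Type) [Finite V] (G : SimpleGraph V) (A B : Set V) (s t : V), G.Adj s t →
        A ∪ B = Set.univ → A ∩ B = {s, t} → (∀ u v, u ∉ B → v ∉ A → ¬ G.Adj u v) →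
        Q A (G.induce A) → Q B (G.induce B) → Q V G) →
      (∀ (V : Type) [Finite V] (G : SimpleGraph V), G.Connected → Q V G → DistortionLE G C) →
      ∀ (V : Type) [Finite V] (G H : SimpleGraph V), G ≤ H → G.Connected →
        CliqueSum 3 (fun V G _ => G.Connected ∧ Q V G) H → EdgeIso G K ∧ DistortionLE G K := by
  obtain ⟨K, hK, h⟩ := edgeIso_glueClosed_sum C hC
  refine ⟨K, hK, fun Q h1 h2 h3 V _ G H hGH hG hs => ?_⟩
  exact h (fun V G => G.Connected ∧ Q V G) (glueClosed_of h1 h2) (fun V G h => h.1)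
    (fun V _ G h => h3 V G h.1 h.2) V G H hGH hG hs

end Vale.Agent.P235.K5.EX.H719
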