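import Vale.Agent.P235.K5.EX.H719.Reroot
import Vale.Agent.P235.K5.EX.H452.E7

set_option linter.all false
set_option autoImplicit false

/-!
# All sums over cliques with at most three vertices of edge-isometric graphs are edge-isometric
(helper719, row [E8] of the line EX)
-/

namespace Vale.Agent.P235.K5.EX.H719

open SimpleGraph Vale.Agent.P235 Vale.Agent.P235.K5 Vale.Agent.P235.K5.H281
open Vale.Agent.P235.ST Vale.Agent.P235.ST.H626 Vale.Agent.P235.K5.EX

theorem edgeExact_iso {V W : Type} {G : SimpleGraph V} {H : SimpleGraph W} (e : G ≃g H) {c : ℝ}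
    (h : EdgeExact G c) : EdgeExact H c := by
  intro ρ hρ hgen s t hst
  have hρ' : IsMet (fun x y : V => ρ (e x) (e y)) :=
    ⟨fun x => hρ.self _, fun x y hxy => hρ.pos _ _ (fun h => hxy (e.injective h)),
      fun x y => hρ.symm _ _, fun x y z => hρ.tri _ _ _⟩
  have hgen' : Gen G (fun x y : V => ρ (e x) (e y)) := by
    intro f hf x y
    have h1 := hgen (fun w => f (e.symm w)) (fun u v huv => by
      have h2 := hf (e.symm u) (e.symm v) (e.symm.map_adj_iff.2 huv)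
      simpa using h2) (e x) (e y)
    simpa using h1
  obtain ⟨F, hF, h1, h2, h3⟩ := h _ hρ' hgen' (e.symm s) (e.symm t) (e.symm.map_adj_iff.2 hst)
  refine ⟨fun x y => F (e.symm x) (e.symm y), hF.comap _, ?_, fun x y => ?_, fun x y => ?_⟩
  · simpa using h1
  · simpa using h2 (e.symm x) (e.symm y)
  · simpa using h3 (e.symm x) (e.symm y)

theorem iso1_PE (c : ℝ) : Iso1 (fun V G => G.Connected ∧ EdgeExact G c) := by
  rintro V W G H e ⟨h1, h2⟩
  exact ⟨(Iso.connected_iff e).1 h1, edgeExact_iso e h2⟩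

/-- **[E8]** -/
theorem ei (h3 : PX3Stmt) (h2 : PX2Stmt) (c : ℝ) (hc : 0 < c) (hc1 : c ≤ 1) :
    ∃ K : ℝ, 1 ≤ K ∧ ∀ (V : Type) [Finite V] (G H : SimpleGraph V), G ≤ H → G.Connected →
      CliqueSum 3 (H452.PE c) H → EdgeIso G K := by
  obtain ⟨K, hK, h⟩ := H452.e7 h3 h2 c hc hc1
  exact ⟨K, hK, edgeIso_of_sums (iso1_PE c) (by norm_num) hK h⟩

/-- `EdgeIso` letters -/
theorem ei' (h3 : PX3Stmt) (h2 : PX2Stmt) (C : ℝ) (hC : 1 ≤ C) :
    ∃ K : ℝ, 1 ≤ K ∧ ∀ (V : Type) [Finite V] (G H : SimpleGraph V), G ≤ H → G.Connected →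
      CliqueSum 3 (fun V G _ => G.Connected ∧ EdgeIso G C) H → EdgeIso G K ∧ DistortionLE G K := by
  have hC0 : 0 < C := by linarith
  obtain ⟨K, hK, h⟩ := ei h3 h2 (1 / C) (by positivity) (by rw [div_le_one hC0]; exact hC)
  refine ⟨K, hK, fun V _ G H hGH hG hs => ?_⟩
  have hs' : CliqueSum 3 (H452.PE (1 / C)) H := by
    obtain ⟨n, B, h1, h2⟩ := hs
    exact ⟨n, B, h1, fun t ht => ⟨(h2 t ht).1, EdgeIso.edgeExact hC0 fun _ => (h2 t ht).2⟩⟩
  have h1 := h V G H hGH hG hs'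
  have h4 : EdgeExact G (1 / K) := EdgeIso.edgeExact (by linarith) fun _ => h1
  have h5 := h4.distortion (by positivity) hG
  rw [one_div_one_div] at h5
  exact ⟨h1, h5⟩

/-- **A class of connected graphs closed under gluing along edges with `c₁ ≤ C`: all its sums over
cliques with at most three vertices (and their connected subgraphs) are `EdgeIso K`.** -/
theorem ei_glue (h3 : PX3Stmt) (h2 : PX2Stmt) (C : ℝ) (hC : 1 ≤ C) :
    ∃ K : ℝ, 1 ≤ K ∧ ∀ Q : ∀ V : Type, SimpleGraph V → Prop, GlueClosed Q →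
      (∀ (V : Type) (G : SimpleGraph V), Q V G → G.Connected) →
      (∀ (V : Type) [Finite V] (G : SimpleGraph V), Q V G → DistortionLE G C) →
      ∀ (V : Type) [Finite V] (G H : SimpleGraph V), G ≤ H → G.Connected →
        CliqueSum 3 (fun V G _ => Q V G) H → EdgeIso G K ∧ DistortionLE G K := by
  obtain ⟨K, hK, h⟩ := ei' h3 h2 C hC
  refine ⟨K, hK, fun Q hQ hconn hdis V _ G H hGH hG hs => h V G H hGH hG ?_⟩
  obtain ⟨n, B, h1, h2⟩ := hs
  exact ⟨n, B, h1, fun t ht => ⟨hconn _ _ (h2 t ht),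
    edgeIso_of_glueClosed hQ hconn hC hdis _ _ (h2 t ht)⟩⟩

end Vale.Agent.P235.K5.EX.H719
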