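import Vale.Agent.P235.K5.H281.Cat
import Vale.Agent.P235.ST.H626.Sums

set_option linter.all false
set_option autoImplicit false

/-!
# Clique sums of pieces without a condition on the root: re-rooting, gluing along an edge (helper719)
-/

namespace Vale.Agent.P235.K5.EX.H719

open SimpleGraph Vale.Agent.P235 Vale.Agent.P235.K5 Vale.Agent.P235.K5.H281
open Vale.Agent.P235.ST Vale.Agent.P235.ST.H626

variable {k : ℕ} {P : ∀ V : Type, SimpleGraph V → Prop}

/-- a class of graphs as a class of graphs with a root -/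
abbrev NR (P : ∀ V : Type, SimpleGraph V → Prop) : ∀ V : Type, SimpleGraph V → Set V → Prop :=
  fun V G _ => P V G

/-- closed under isomorphism -/
def Iso1 (P : ∀ V : Type, SimpleGraph V → Prop) : Prop :=
  ∀ (V W : Type) (G : SimpleGraph V) (H : SimpleGraph W), (G ≃g H) → P V G → P W H

/-- **Re-rooting.** -/
theorem reroot {V : Type} {H : SimpleGraph V} {n : ℕ} {B : ℕ → Set V}
    (h : K5.Glued k H n B) (hP : ∀ t < n, P (B t) (H.induce (B t))) :
    ∀ m, 0 < m → m ≤ n → ∀ C : Set V, C ⊆ Bef B m →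
      (∀ u ∈ C, ∀ v ∈ C, u ≠ v → H.Adj u v) → RootedOn k (NR P) H (Bef B m) C := by
  intro m
  induction m with
  | zero => intro h0; omega
  | succ m ih =>
    intro _ hmn C hC hcl
    have hbef : Bef B (m + 1) = Bef B m ∪ B m := by
      ext v
      constructor
      · rintro ⟨s, hs, hv⟩
        by_cases h1 : s = m
        · exact Or.inr (h1 ▸ hv)
        · exact Or.inl ⟨s, by omega, hv⟩
      · rintro (⟨s, hs, hv⟩ | hv)
        · exact ⟨s, by omega, hv⟩
        · exact ⟨m, by omega, hv⟩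
    rw [hbef] at hC ⊢
    rcases Nat.eq_zero_or_pos m with h0 | h0
    · subst h0
      have h1 : Bef B 0 = ∅ := by
        ext v
        constructor
        · rintro ⟨s, hs, _⟩; omega
        · intro h; exact h.elim
      rw [h1, Set.empty_union] at hC ⊢
      exact RootedOn.single hC (hP 0 (by omega))
    · have hm : m < n := by omega
      by_cases hCB : C ⊆ Bef B m
      · refine RootedOn.cat (S := Adh B m) ?_ (h.clique m hm) (h.card m hm) ?_
          (ih h0 (by omega) C hCB hcl) (RootedOn.single (fun v hv => hv.1) (hP m hm))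
        · ext v
          exact ⟨fun hv => ⟨hv.2, hv.1⟩, fun hv => ⟨hv.2, hv.1⟩⟩
        · intro u hu hu' v hv hv' huv
          exact h.sep m hm v u hv hv' hu hu' huv.symm
      · rw [Set.not_subset] at hCB
        obtain ⟨c, hc, hcm⟩ := hCB
        have hcB : c ∈ B m := (hC hc).resolve_left hcm
        have hCm : C ⊆ B m := by
          intro v hv
          by_contra hvm
          have hvb : v ∈ Bef B m := (hC hv).resolve_right hvm
          exact h.sep m hm c v hcB hcm hvb hvm (hcl c hc v hv (fun e => hvm (e ▸ hcB)))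
        rw [Set.union_comm]
        refine RootedOn.cat (S := Adh B m) ?_ (h.clique m hm) (h.card m hm) ?_
          (RootedOn.single hCm (hP m hm))
          (ih h0 (by omega) (Adh B m) (fun v hv => hv.2) (h.clique m hm))
        · ext v
          exact ⟨fun hv => ⟨hv.1, hv.2⟩, fun hv => ⟨hv.1, hv.2⟩⟩
        · intro u hu hu' v hv hv' huv
          exact h.sep m hm u v hu hu' hv hv' huv

/-- every clique can be the root -/
def AllRooted (k : ℕ) (P : ∀ V : Type, SimpleGraph V → Prop) (V : Type) (G : SimpleGraph V) :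
    Prop :=
  ∀ C : Set V, (∀ u ∈ C, ∀ v ∈ C, u ≠ v → G.Adj u v) → Rooted k (NR P) G C

/-- subgraphs of clique sums can be rooted at every clique -/
theorem allRooted_of {V : Type} [Nonempty V] {G H : SimpleGraph V} (hGH : G ≤ H)
    (h : CliqueSum k (NR P) H) : AllRooted k P V G := by
  obtain ⟨n, B, hB, hP⟩ := h
  have hn : 0 < n := by
    obtain ⟨v⟩ := ‹Nonempty V›
    obtain ⟨t, ht, _⟩ := hB.cover v
    omega
  have h2 : Bef B n = Set.univ := by
    ext v
    simp only [Set.mem_univ, iff_true]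
    obtain ⟨t, ht, hv⟩ := hB.cover v
    exact ⟨t, ht, hv⟩
  intro C hC
  have h1 := reroot hB hP n hn le_rfl C (by rw [h2]; exact Set.subset_univ C)
    (fun u hu v hv huv => hGH (hC u hu v hv huv))
  rw [h2] at h1
  exact RootedOn.mono h1 fun u _ v _ huv => hGH huv

/-- **Transport** along an injection. -/
theorem rootedOn_map (hP : Iso1 P) {V V' : Type} (f : V ↪ V') {G : SimpleGraph V}
    {G' : SimpleGraph V'} (hG : ∀ u v, G'.Adj (f u) (f v) → G.Adj u v) {C : Set V}
    (h : Rooted k (NR P) G C) : RootedOn k (NR P) G' (Set.range f) (f '' C) := by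
  classical
  obtain ⟨H, n, B, h⟩ := h
  set H' : SimpleGraph V' := H.map f with hH'
  have hadj : ∀ u v : V, H'.Adj (f u) (f v) ↔ H.Adj u v := by
    intro u v
    exact SimpleGraph.map_adj_apply
  set B' : ℕ → Set V' := fun t => f '' B t with hB'
  have bef : ∀ t, Bef B' t = f '' Bef B t := by
    intro t
    ext v
    constructor
    · rintro ⟨s, hs, x, hx, rfl⟩
      exact ⟨x, ⟨s, hs, hx⟩, rfl⟩
    · rintro ⟨x, ⟨s, hs, hx⟩, rfl⟩
      exact ⟨s, hs, x, hx, rfl⟩
  have adh : ∀ t, Adh B' t = f '' Adh B t := by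
    intro t
    unfold Adh
    rw [bef]
    ext v
    constructor
    · rintro ⟨⟨x, hx, rfl⟩, y, hy, hxy⟩
      have : y = x := f.injective hxy
      subst this
      exact ⟨y, ⟨hx, hy⟩, rfl⟩
    · rintro ⟨x, ⟨hx, hx'⟩, rfl⟩
      exact ⟨⟨x, hx, rfl⟩, x, hx', rfl⟩
  have pc : ∀ S : Set V, P S (H.induce S) → P (f '' S : Set V') (H'.induce (f '' S)) := by
    intro S h
    exact hP _ _ _ _
      { toEquiv := Equiv.Set.image f S f.injective
        map_rel_iff' := by
          intro a b
          exact hadj a.1 b.1 } h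
  refine ⟨H', n, B', ?_, h.pos, ?_, ?_, ?_, ?_, ?_, ?_, ?_, ?_⟩
  · rintro _ ⟨u, rfl⟩ _ ⟨v, rfl⟩ huv
    exact (hadj u v).2 (h.le u trivial v trivial (hG u v huv))
  · rintro t ht _ ⟨x, hx, rfl⟩
    exact ⟨x, rfl⟩
  · rintro _ ⟨v, rfl⟩
    obtain ⟨t, ht, h'⟩ := h.cover v trivial
    exact ⟨t, ht, v, h', rfl⟩
  · intro t ht
    rw [adh, Set.ncard_image_of_injective _ f.injective]
    exact h.card t ht
  · intro t ht
    rw [adh]
    rintro _ ⟨u, hu, rfl⟩ _ ⟨v, hv, rfl⟩ huv
    exact (hadj u v).2 (h.clique t ht u hu v hv fun e => huv (congrArg _ e))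
  · intro t ht u v hu hu' hv hv' huv
    rw [bef] at hu' hv
    obtain ⟨x, hx, rfl⟩ := hu
    obtain ⟨y, hy, rfl⟩ := hv
    exact h.sep t ht x y hx (fun h => hu' ⟨x, h, rfl⟩) hy (fun h => hv' ⟨y, h, rfl⟩)
      ((hadj x y).1 huv)
  · rintro _ ⟨r, hr, rfl⟩
    exact ⟨r, h.root hr, rfl⟩
  · exact pc (B 0) h.piece0
  · intro t h0 ht
    exact pc (B t) (h.piece t h0 ht)

/-- the class of the connected graphs in which every clique can be the root -/
def Q (k : ℕ) (P : ∀ V : Type, SimpleGraph V → Prop) (V : Type) (G : SimpleGraph V) : Prop :=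
  G.Connected ∧ AllRooted k P V G

/-- **The class is closed under gluing along edges.** -/
theorem q_glueClosed (hP : Iso1 P) (hk : 2 ≤ k) : GlueClosed (Q k P) := by
  rintro V W _ _ G H a b s t hab hst ⟨hG, hG'⟩ ⟨hH, hH'⟩
  refine ⟨gg_connected hG hH hab hst, ?_⟩
  have hg := glued (G := G) (H := H) hab hst
  have hne : (Sum.inl a : GV V s t) ≠ Sum.inl b := fun e => hab.ne (Sum.inl.inj e)
  have hadj : (GG G H a b s t).Adj (Sum.inl a) (Sum.inl b) := hg.adjA a b hab
  set S : Set (GV V s t) := {Sum.inl a, Sum.inl b} with hS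
  have hScl : ∀ u ∈ S, ∀ v ∈ S, u ≠ v → (GG G H a b s t).Adj u v := by
    rintro u (rfl | rfl) v (rfl | rfl) huv
    · exact absurd rfl huv
    · exact hadj
    · exact hadj.symm
    · exact absurd rfl huv
  have hScard : S.ncard ≤ k := (Set.ncard_pair hne).le.trans hk
  let f1 : V ↪ GV V s t := ⟨Sum.inl, Sum.inl_injective⟩
  let f2 : W ↪ GV V s t := ⟨i2 a b s t, hg.injB⟩
  have hG1 : ∀ u v, (GG G H a b s t).Adj (f1 u) (f1 v) → G.Adj u v := by
    intro u v huv
    rcases hg.adj _ _ huv with ⟨x, y, hxy, hx, hy⟩ | ⟨x, y, hxy, hx, hy⟩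
    · have e1 : x = u := Sum.inl_injective hx
      have e2 : y = v := Sum.inl_injective hy
      rw [← e1, ← e2]; exact hxy
    · rcases hg.inter u x hx.symm with ⟨e1, e2⟩ | ⟨e1, e2⟩ <;>
      rcases hg.inter v y hy.symm with ⟨e3, e4⟩ | ⟨e3, e4⟩
      · exact absurd (e2.trans e4.symm) hxy.ne
      · rw [e1, e3]; exact hab
      · rw [e1, e3]; exact hab.symm
      · exact absurd (e2.trans e4.symm) hxy.ne
  have hG2 : ∀ u v, (GG G H a b s t).Adj (f2 u) (f2 v) → H.Adj u v := by
    intro u v huv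
    rcases hg.adj _ _ huv with ⟨x, y, hxy, hx, hy⟩ | ⟨x, y, hxy, hx, hy⟩
    · rcases hg.inter x u hx with ⟨e1, e2⟩ | ⟨e1, e2⟩ <;>
      rcases hg.inter y v hy with ⟨e3, e4⟩ | ⟨e3, e4⟩
      · exact absurd (e1.trans e3.symm) hxy.ne
      · rw [e2, e4]; exact hst
      · rw [e2, e4]; exact hst.symm
      · exact absurd (e1.trans e3.symm) hxy.ne
    · have e1 : x = u := hg.injB hx
      have e2 : y = v := hg.injB hy
      rw [← e1, ← e2]; exact hxy
  have hXY : Set.range f1 ∩ Set.range f2 = S := by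
    ext v
    constructor
    · rintro ⟨⟨x, rfl⟩, y, hy⟩
      rcases hg.inter x y hy.symm with ⟨e1, -⟩ | ⟨e1, -⟩
      · left; show Sum.inl x = _; rw [e1]
      · right; show Sum.inl x = _; rw [e1]
    · rintro (rfl | rfl)
      · exact ⟨⟨a, rfl⟩, s, hg.hs.symm⟩
      · exact ⟨⟨b, rfl⟩, t, hg.ht.symm⟩
  have hU : Set.range f1 ∪ Set.range f2 = Set.univ := by
    ext v
    simp only [Set.mem_univ, iff_true]
    rcases hg.cov v with ⟨x, hx⟩ | ⟨x, hx⟩
    · exact Or.inl ⟨x, hx⟩
    · exact Or.inr ⟨x, hx⟩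
  have hno : ∀ u ∈ Set.range f1, u ∉ Set.range f2 → ∀ v ∈ Set.range f2, v ∉ Set.range f1 →
      ¬ (GG G H a b s t).Adj u v := by
    intro u hu hu' v hv hv' huv
    rcases hg.adj _ _ huv with ⟨x, y, hxy, hx, hy⟩ | ⟨x, y, hxy, hx, hy⟩
    · exact hv' ⟨y, hy⟩
    · exact hu' ⟨x, hx⟩
  have root1 : ∀ C : Set (GV V s t), C ⊆ Set.range f1 →
      (∀ u ∈ C, ∀ v ∈ C, u ≠ v → (GG G H a b s t).Adj u v) →
      RootedOn k (NR P) (GG G H a b s t) (Set.range f1) C := by
    intro C hC hcl
    have h1 := rootedOn_map hP f1 hG1 (hG' (f1 ⁻¹' C) fun u hu v hv huv =>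
      hG1 u v (hcl _ hu _ hv fun e => huv (f1.injective e)))
    rwa [Set.image_preimage_eq_of_subset hC] at h1
  have root2 : ∀ C : Set (GV V s t), C ⊆ Set.range f2 →
      (∀ u ∈ C, ∀ v ∈ C, u ≠ v → (GG G H a b s t).Adj u v) →
      RootedOn k (NR P) (GG G H a b s t) (Set.range f2) C := by
    intro C hC hcl
    have h1 := rootedOn_map hP f2 hG2 (hH' (f2 ⁻¹' C) fun u hu v hv huv =>
      hG2 u v (hcl _ hu _ hv fun e => huv (f2.injective e)))
    rwa [Set.image_preimage_eq_of_subset hC] at h1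
  intro C hC
  show RootedOn k (NR P) (GG G H a b s t) Set.univ C
  by_cases hCX : C ⊆ Set.range f1
  · rw [← hU]
    refine RootedOn.cat (S := S) hXY hScl hScard hno (root1 C hCX hC) (root2 S ?_ hScl)
    rw [← hXY]; exact Set.inter_subset_right
  · rw [Set.not_subset] at hCX
    obtain ⟨c, hc, hc1⟩ := hCX
    have hc2 : c ∈ Set.range f2 := by
      have : c ∈ Set.range f1 ∪ Set.range f2 := by rw [hU]; trivial
      exact this.resolve_left hc1
    have hCY : C ⊆ Set.range f2 := by
      intro v hv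
      by_contra hv2
      have hv1 : v ∈ Set.range f1 := by
        have : v ∈ Set.range f1 ∪ Set.range f2 := by rw [hU]; trivial
        exact this.resolve_right hv2
      exact hno v hv1 hv2 c hc2 hc1 (hC v hv c hc (fun e => hc1 (e ▸ hv1)))
    rw [← hU, Set.union_comm]
    refine RootedOn.cat (S := S) (by rw [Set.inter_comm]; exact hXY) hScl hScard ?_
      (root2 C hCY hC) (root1 S ?_ hScl)
    · intro u hu hu' v hv hv' huv
      exact hno v hv hv' u hu hu' huv.symm
    · rw [← hXY]; exact Set.inter_subset_left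

/-- **The class of all connected subgraphs of clique sums over at most `k ≥ 2` vertices of pieces of
a class closed under isomorphism: if `c₁ ≤ K` there, then all of them are `EdgeIso K`.** -/
theorem edgeIso_of_sums (hP : Iso1 P) (hk : 2 ≤ k) {K : ℝ} (hK : 1 ≤ K)
    (h : ∀ (V : Type) [Finite V] (G H : SimpleGraph V), G ≤ H → G.Connected →
      CliqueSum k (NR P) H → DistortionLE G K)
    (V : Type) [Finite V] (G H : SimpleGraph V) (hGH : G ≤ H) (hG : G.Connected)
    (hH : CliqueSum k (NR P) H) : EdgeIso G K := by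
  refine edgeIso_of_glueClosed (q_glueClosed hP hk) (fun _ _ h => h.1) hK (fun V _ G hQ => ?_) V G
    ⟨hG, ?_⟩
  · obtain ⟨H, hH, hs⟩ := Rooted.cliqueSum (hQ.2 ∅ (fun u hu => hu.elim)) (fun _ _ _ h => h)
    exact h V G H hH hQ.1 hs
  · have := hG.nonempty
    exact allRooted_of hGH hH

end Vale.Agent.P235.K5.EX.H719
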